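import Mathlib

/-!
P161: the free zero-field Ising measure on a tree, described by its step-by-step construction, and
factors of IID, with spins in `ℤˣ = {1, -1}`.
-/

open MeasureTheory

namespace Vale.Agent.P161.D3

/-- `μ` is the free zero-field Ising measure on the tree `T` at inverse temperature `β`, built from
the vertex `o` outwards:
* the spin of `o` is uniform;
* if the spins on a finite connected vertex set `D` containing `o` have been chosen, then a vertex
  `v` outside `D` next to a vertex `u` of `D` (its parent) agrees with `u` with probability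
  `(1 + tanh β) / 2`, whatever the spins on `D` are. -/
structure IsFreeIsing {V : Type*} (T : SimpleGraph V) (o : V) (β : ℝ)
    (μ : Measure (V → ℤˣ)) : Prop where
  root : ∀ s : ℤˣ, μ {σ | σ o = s} = 1 / 2
  child : ∀ (D : Finset V) (u v : V) (η : V → ℤˣ), (T.induce (D : Set V)).Connected →
    o ∈ D → u ∈ D → v ∉ D → T.Adj u v →
    μ {σ | (∀ w ∈ D, σ w = η w) ∧ σ v = σ u} =
      ENNReal.ofReal ((1 + Real.tanh β) / 2) * μ {σ | ∀ w ∈ D, σ w = η w}

/-- `ν` is a factor of IID: it is the law of `Φ(U)`, where the `U v` are i.i.d. uniform on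
`[0, 1]`, `Φ` is measurable, and `Φ(g U) = g Φ(U)` almost surely for each fixed automorphism `g`,
where `(g x) v = x (g⁻¹ v)`. -/
def IsFactorOfIID {V : Type*} (T : SimpleGraph V) (ν : Measure (V → ℤˣ)) : Prop :=
  ∃ Φ : (V → unitInterval) → (V → ℤˣ), Measurable Φ ∧
    (∀ g : T ≃g T, ∀ᵐ U ∂(Measure.infinitePi fun _ : V => (volume : Measure unitInterval)),
      Φ (fun v => U (g.symm v)) = fun v => Φ U (g.symm v)) ∧
    (Measure.infinitePi fun _ : V => (volume : Measure unitInterval)).map Φ = ν

end Vale.Agent.P161.D3
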