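import Vale.Agent.Lib.P161.Inst
import Vale.Agent.Lib.P161.NonF
import Vale.Agent.Lib.P161.Crit.Final
import Vale.Agent.Lib.P161.Draw2
import Vale.Agent.Lib.P161.D3.Defs

/-!
P161: the measure described by the step-by-step rule is the free Ising measure.
-/

open MeasureTheory

namespace Vale.Agent.P161.D3

variable {V : Type*} {T : SimpleGraph V}

theorem units_aux : ∀ a b c : ℤˣ, a ≠ b → c ≠ b → c = a := by decide

theorem spin_toB_mul {a b : ℤˣ} (h : b ≠ a) : spin (toB a) * spin (toB b) = -1 := by
  have h1 : spin (toB 1) = 1 := by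
    have : toB 1 = true := by decide
    rw [this]
    simp [spin]
  have h2 : spin (toB (-1)) = -1 := by
    have : toB (-1) = false := by decide
    rw [this]
    simp [spin]
  rcases Int.units_eq_one_or a with rfl | rfl <;> rcases Int.units_eq_one_or b with rfl | rfl
  · exact absurd rfl h
  · rw [h1, h2]; norm_num
  · rw [h1, h2]; norm_num
  · exact absurd rfl h

theorem toB_injective : Function.Injective toB := fun s t h => by
  rw [← ofB_toB s, ← ofB_toB t, h]

/-- the map to Boolean configurations -/
def tob (σ : V → ℤˣ) : V → Bool := fun v => toB (σ v)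

/-- the map from Boolean configurations -/
def ofb (σ : V → Bool) : V → ℤˣ := fun v => ofB (σ v)

theorem measurable_tob : Measurable (tob (V := V)) :=
  measurable_pi_iff.2 fun w => measurable_toB.comp (measurable_pi_apply w)

theorem measurable_ofb : Measurable (ofb (V := V)) :=
  measurable_pi_iff.2 fun w => measurable_ofB.comp (measurable_pi_apply w)

theorem map_injective {μ ν : Measure (V → ℤˣ)} (h : μ.map tob = ν.map tob) : μ = ν := by
  have h1 : (ofb ∘ tob : (V → ℤˣ) → V → ℤˣ) = id := by
    funext σ v
    exact ofB_toB (σ v)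
  have h2 : (μ.map tob).map ofb = (ν.map tob).map ofb := by rw [h]
  rw [Measure.map_map measurable_ofb measurable_tob, Measure.map_map measurable_ofb measurable_tob,
    h1, Measure.map_id, Measure.map_id] at h2
  exact h2

theorem cyl_eq (D : Finset V) (η : V → ℤˣ) :
    {σ : V → ℤˣ | ∀ w ∈ D, σ w = η w} = tob ⁻¹' cyl D (tob η) := by
  ext σ
  simp only [Set.mem_ofPred_eq, Set.mem_preimage, cyl, tob]
  exact ⟨fun h w hw => by rw [h w hw], fun h w hw => toB_injective (h w hw)⟩

theorem measure_cyl (μ : Measure (V → ℤˣ)) (D : Finset V) (η : V → ℤˣ) :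
    μ {σ : V → ℤˣ | ∀ w ∈ D, σ w = η w} = μ.map tob (cyl D (tob η)) := by
  rw [cyl_eq, Measure.map_apply measurable_tob (measurableSet_cyl _ _)]

/-- weight of one more vertex -/
theorem wt_step (hG : T.IsTree) [DecidableEq V] {D : Finset V}
    (hD : (T.induce (D : Set V)).Connected) {u v : V} (hu : u ∈ D) (hv : v ∉ D) (huv : T.Adj u v)
    (θ : ℝ) (η : V → Bool) :
    wt T θ (D ∪ {v}) η = wt T θ D η * ((1 + θ * spin (η u) * spin (η v)) / 2) := by
  have hA : ∀ y ∈ D, T.dist y v = T.dist y u + 1 := fun y hy =>
    side_of_connected hG hD (Finset.mem_coe.2 hu) (by exact_mod_cast hv) huv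
      (Finset.mem_coe.2 hy)
  have hB : ∀ y ∈ ({v} : Finset V), T.dist y u = T.dist y v + 1 := by
    intro y hy
    rw [Finset.mem_singleton] at hy
    subst hy
    rw [SimpleGraph.dist_self, SimpleGraph.dist_eq_one_iff_adj.2 huv.symm]
  rw [wt_union hG huv hu (Finset.mem_singleton_self v) hA hB, wt_singleton, mul_one]

theorem connected_step [DecidableEq V] {D : Finset V}
    (hD : (T.induce (D : Set V)).Connected) {u v : V} (hu : u ∈ D) (huv : T.Adj u v) :
    (T.induce ((D ∪ {v} : Finset V) : Set V)).Connected :=
  connected_union huv hu (Finset.mem_singleton_self v) hD (connected_singleton v)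

/-- the step-by-step rule holds for the free Ising measure -/
theorem of_isFreeIsing (hG : T.IsTree) {β : ℝ} {μ : Measure (V → ℤˣ)} (o : V)
    (h : Vale.Agent.P161.IsFreeIsing T β (μ.map tob)) : IsFreeIsing T o β μ := by
  classical
  have hθ : |Real.tanh β| ≤ 1 := abs_tanh_le_one β
  refine ⟨fun s => ?_, fun D u v η hD ho hu hv huv => ?_⟩
  · have h1 := h.cyl_eq (connected_singleton (G := T) o) (tob fun _ => s)
    rw [← measure_cyl, wt_singleton, mul_one] at h1
    have h2 : {σ : V → ℤˣ | ∀ w ∈ ({o} : Finset V), σ w = s} = {σ | σ o = s} := by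
      ext σ
      simp
    rw [h2] at h1
    rw [h1, ENNReal.ofReal_div_of_pos (by norm_num), ENNReal.ofReal_one, ENNReal.ofReal_ofNat]
  · set η' : V → ℤˣ := Function.update η v (η u) with hη'
    have hne : ∀ w ∈ D, w ≠ v := fun w hw hwv => hv (hwv ▸ hw)
    have h2 : {σ : V → ℤˣ | (∀ w ∈ D, σ w = η w) ∧ σ v = σ u} =
        {σ | ∀ w ∈ D ∪ {v}, σ w = η' w} := by
      ext σ
      simp only [Set.mem_ofPred_eq, Finset.mem_union, Finset.mem_singleton]
      constructor
      · rintro ⟨h3, h4⟩ w (hw | rfl)
        · rw [hη', Function.update_of_ne (hne w hw), h3 w hw]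
        · rw [hη', Function.update_self, h4, h3 u hu]
      · intro h3
        have h4 : ∀ w ∈ D, σ w = η w := fun w hw => by
          rw [h3 w (Or.inl hw), hη', Function.update_of_ne (hne w hw)]
        refine ⟨h4, ?_⟩
        rw [h3 v (Or.inr rfl), hη', Function.update_self, h4 u hu]
    rw [h2, measure_cyl, measure_cyl, h.cyl_eq (connected_step hD hu huv), h.cyl_eq hD,
      wt_step hG hD hu hv huv, ← ENNReal.ofReal_mul (by linarith [(abs_le.1 hθ).1])]
    congr 1
    have h5 : wt T (Real.tanh β) D (tob η') = wt T (Real.tanh β) D (tob η) :=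
      wt_congr _ _ fun w hw => by
        simp only [tob, hη']
        rw [Function.update_of_ne (hne w hw)]
    have h6 : tob η' v = tob η' u := by
      simp only [tob, hη']
      rw [Function.update_self, Function.update_of_ne (hne u hu)]
    rw [h5, h6, mul_assoc (Real.tanh β), spin_mul_self, mul_one]
    ring

/-- the step-by-step rule determines the probabilities of the patterns on the connected sets
containing the root -/
theorem cyl_of_rule (hG : T.IsTree) {β : ℝ} {μ : Measure (V → ℤˣ)} {o : V}
    (h : IsFreeIsing T o β μ) : ∀ (n : ℕ) (D : Finset V), D.card = n →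
      (T.induce (D : Set V)).Connected → o ∈ D → ∀ η : V → ℤˣ,
      μ {σ : V → ℤˣ | ∀ w ∈ D, σ w = η w} =
        ENNReal.ofReal (1 / 2 * wt T (Real.tanh β) D (tob η)) := by
  classical
  have hθ : |Real.tanh β| ≤ 1 := abs_tanh_le_one β
  have hc := hG.connected
  intro n
  induction n with
  | zero =>
    intro D hn hD ho η
    rw [Finset.card_eq_zero] at hn
    subst hn
    exact absurd ho (Finset.notMem_empty _)
  | succ n ih =>
    intro D hn hD ho η
    obtain ⟨v, hvD, hmax⟩ := Finset.exists_max_image D (fun v => T.dist o v) ⟨o, ho⟩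
    by_cases hvo : v = o
    · have hDo : D = {o} := by
        refine Finset.eq_singleton_iff_unique_mem.2 ⟨ho, fun y hy => ?_⟩
        have h1 := hmax y hy
        rw [hvo, SimpleGraph.dist_self, Nat.le_zero] at h1
        exact ((hc.dist_eq_zero_iff).1 h1).symm
      subst hDo
      rw [wt_singleton, mul_one]
      have h2 : {σ : V → ℤˣ | ∀ w ∈ ({o} : Finset V), σ w = η w} = {σ | σ o = η o} := by
        ext σ
        simp
      rw [h2, h.root, ENNReal.ofReal_div_of_pos (by norm_num), ENNReal.ofReal_one,
        ENNReal.ofReal_ofNat]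
    · obtain ⟨hadj, hdist⟩ := par_spec hc hvo
      set u := par T o v with hu
      set D' := D.erase v with hD'
      have hoD' : o ∈ D' := Finset.mem_erase.2 ⟨fun h => hvo h.symm, ho⟩
      have hpar : ∀ y ∈ D, y ≠ o → par T o y ∈ D' := by
        intro y hy hyo
        refine Finset.mem_erase.2 ⟨fun h3 => ?_, Finset.mem_coe.1 (par_mem hG hD
          (Finset.mem_coe.2 ho) (Finset.mem_coe.2 hy) hyo)⟩
        have h4 := (par_spec hc hyo).2
        have h5 := hmax y hy
        rw [h3] at h4
        omega
      have huD' : u ∈ D' := hpar v hvD hvo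
      have hvD' : v ∉ D' := Finset.notMem_erase v D
      have hcon : (T.induce (D' : Set V)).Connected := by
        have hreach : ∀ k : ℕ, ∀ y (hy : y ∈ (D' : Set V)), T.dist o y = k →
            (T.induce (D' : Set V)).Reachable ⟨y, hy⟩ ⟨o, Finset.mem_coe.2 hoD'⟩ := by
          intro k
          induction k with
          | zero =>
            intro y hy hk
            have : o = y := (hc.dist_eq_zero_iff).1 hk
            subst this
            exact SimpleGraph.Reachable.refl _
          | succ k ihk =>
            intro y hy hk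
            have hyo : y ≠ o := by
              rintro rfl
              rw [SimpleGraph.dist_self] at hk
              omega
            have hyD : y ∈ D := Finset.mem_of_mem_erase (Finset.mem_coe.1 hy)
            obtain ⟨h6, h7⟩ := par_spec hc hyo
            have hz : par T o y ∈ (D' : Set V) := Finset.mem_coe.2 (hpar y hyD hyo)
            have h8 : (T.induce (D' : Set V)).Adj ⟨y, hy⟩ ⟨par T o y, hz⟩ := h6
            exact h8.reachable.trans (ihk _ hz (by omega))
        have : Nonempty ((D' : Set V)) := ⟨⟨o, Finset.mem_coe.2 hoD'⟩⟩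
        refine SimpleGraph.Connected.mk fun a b => ?_
        exact (hreach _ a.1 a.2 rfl).trans (hreach _ b.1 b.2 rfl).symm
      have hcard : D'.card = n := by
        rw [hD', Finset.card_erase_of_mem hvD, hn]
        rfl
      have hDD' : D = D' ∪ {v} := by
        ext w
        simp only [hD', Finset.mem_union, Finset.mem_erase, Finset.mem_singleton]
        constructor
        · intro hw
          by_cases hwv : w = v
          · exact Or.inr hwv
          · exact Or.inl ⟨hwv, hw⟩
        · rintro (⟨_, hw⟩ | rfl)
          · exact hw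
          · exact hvD
      have ih' := ih D' hcard hcon hoD' η
      have hch := h.child D' u v η hcon hoD' huD' hvD' hadj.symm
      have hw := wt_step hG hcon huD' hvD' hadj.symm (Real.tanh β) (tob η)
      rw [hDD', hw]
      set a := wt T (Real.tanh β) D' (tob η) with ha
      have ha0 : 0 ≤ a := wt_nonneg hθ _ _
      have hb0 : 0 ≤ (1 + Real.tanh β) / 2 := by linarith [(abs_le.1 hθ).1]
      by_cases heq : η v = η u
      · have hset : {σ : V → ℤˣ | ∀ w ∈ D' ∪ {v}, σ w = η w} =
            {σ | (∀ w ∈ D', σ w = η w) ∧ σ v = σ u} := by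
          ext σ
          simp only [Set.mem_ofPred_eq, Finset.mem_union, Finset.mem_singleton]
          constructor
          · intro h9
            refine ⟨fun w hw => h9 w (Or.inl hw), ?_⟩
            rw [h9 v (Or.inr rfl), h9 u (Or.inl huD'), heq]
          · rintro ⟨h9, h10⟩ w (hw | rfl)
            · exact h9 w hw
            · rw [h10, h9 u huD', heq]
        have hs : tob η v = tob η u := by simp only [tob, heq]
        rw [hset, hch, ih', ← ENNReal.ofReal_mul hb0, hs, mul_assoc (Real.tanh β), spin_mul_self,
          mul_one]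
        congr 1
        ring
      · have hset : {σ : V → ℤˣ | ∀ w ∈ D' ∪ {v}, σ w = η w} =
            {σ | ∀ w ∈ D', σ w = η w} \ {σ | (∀ w ∈ D', σ w = η w) ∧ σ v = σ u} := by
          ext σ
          simp only [Set.mem_ofPred_eq, Finset.mem_union, Finset.mem_singleton, Set.mem_sdiff,
            not_and]
          constructor
          · intro h9
            refine ⟨fun w hw => h9 w (Or.inl hw), fun _ h10 => heq ?_⟩
            rw [← h9 v (Or.inr rfl), ← h9 u (Or.inl huD'), h10]
          · rintro ⟨h9, h10⟩ w (hw | rfl)
            · exact h9 w hw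
            · have h11 := h10 h9
              rw [h9 u huD'] at h11
              exact units_aux _ _ _ heq h11
        have hmeas : MeasurableSet {σ : V → ℤˣ | (∀ w ∈ D', σ w = η w) ∧ σ v = σ u} := by
          have h12 : {σ : V → ℤˣ | (∀ w ∈ D', σ w = η w) ∧ σ v = σ u} =
              tob ⁻¹' cyl (D' ∪ {v}) (tob (Function.update η v (η u))) := by
            rw [← cyl_eq]
            ext σ
            simp only [Set.mem_ofPred_eq, Finset.mem_union, Finset.mem_singleton]
            have hne : ∀ w ∈ D', w ≠ v := fun w hw hwv => hvD' (hwv ▸ hw)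
            constructor
            · rintro ⟨h3, h4⟩ w (hw | rfl)
              · rw [Function.update_of_ne (hne w hw), h3 w hw]
              · rw [Function.update_self, h4, h3 u huD']
            · intro h3
              have h4 : ∀ w ∈ D', σ w = η w := fun w hw => by
                rw [h3 w (Or.inl hw), Function.update_of_ne (hne w hw)]
              refine ⟨h4, ?_⟩
              rw [h3 v (Or.inr rfl), Function.update_self, h4 u huD']
          rw [h12]
          exact measurable_tob (measurableSet_cyl _ _)
        have hs : spin (tob η u) * spin (tob η v) = -1 := spin_toB_mul heq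
        have hfin : μ {σ | (∀ w ∈ D', σ w = η w) ∧ σ v = σ u} ≠ ⊤ := by
          rw [hch, ih', ← ENNReal.ofReal_mul hb0]
          exact ENNReal.ofReal_ne_top
        have hsub : {σ : V → ℤˣ | (∀ w ∈ D', σ w = η w) ∧ σ v = σ u} ⊆
            {σ | ∀ w ∈ D', σ w = η w} := fun σ hσ => hσ.1
        rw [hset, measure_sdiff hsub hmeas.nullMeasurableSet hfin, hch, ih',
          ← ENNReal.ofReal_mul hb0, ← ENNReal.ofReal_sub _ (mul_nonneg hb0 (by positivity)),
          mul_assoc (Real.tanh β), hs]
        congr 1
        ring

/-- a probability measure on Boolean configurations is determined by its values on the patterns on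
connected sets containing `o` -/
theorem ext_of_rooted [T.LocallyFinite] (hG : T.IsTree) (o : V) {μ ν : Measure (V → Bool)}
    [IsProbabilityMeasure μ] [IsProbabilityMeasure ν]
    (h : ∀ D : Finset V, (T.induce (D : Set V)).Connected → o ∈ D → ∀ η : V → Bool,
      μ (cyl D η) = ν (cyl D η)) : μ = ν := by
  classical
  have hcyl : ∀ (I : Finset V) (η : V → Bool), μ (cyl I η) = ν (cyl I η) := by
    intro I η
    obtain ⟨D, hID', hD⟩ := exists_connected_superset hG.connected (insert o I)
    have hID : I ⊆ D := fun w hw => hID' (Finset.mem_insert_of_mem hw)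
    have hoD : o ∈ D := hID' (Finset.mem_insert_self _ _)
    have hf : DepOn (D : Set V) ((cyl I η).indicator (fun _ => (1 : ℝ))) := by
      intro σ τ hst
      have : σ ∈ cyl I η ↔ τ ∈ cyl I η := by
        constructor
        · intro h v hv; rw [← hst v (hID hv)]; exact h v hv
        · intro h v hv; rw [hst v (hID hv)]; exact h v hv
      by_cases h : σ ∈ cyl I η
      · rw [Set.indicator_of_mem h, Set.indicator_of_mem (this.1 h)]
      · rw [Set.indicator_of_notMem h, Set.indicator_of_notMem (fun h' => h (this.2 h'))]
    have h1 : ∀ ρ : Measure (V → Bool), IsProbabilityMeasure ρ →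
        ∫ σ, (cyl I η).indicator (fun _ => (1 : ℝ)) σ ∂ρ = ρ.real (cyl I η) := by
      intro ρ _
      rw [integral_indicator (measurableSet_cyl _ _), setIntegral_const, smul_eq_mul, mul_one]
    have h2 : μ.real (cyl I η) = ν.real (cyl I η) := by
      rw [← h1 μ inferInstance, ← h1 ν inferInstance, hf.integral_eq, hf.integral_eq]
      refine Finset.sum_congr rfl fun S _ => ?_
      rw [measureReal_def, measureReal_def, h D hD hoD]
    exact (measureReal_eq_measureReal_iff).1 h2
  have hproj : ∀ ρ : Measure (V → Bool), IsProbabilityMeasure ρ →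
      (∀ (I : Finset V) (η : V → Bool), ρ (cyl I η) = μ (cyl I η)) →
      IsProjectiveLimit ρ (fun I : Finset V => μ.map (Finset.restrict I)) := by
    intro ρ _ hρ I
    refine Measure.ext_of_singleton fun x => ?_
    rw [Measure.map_apply (Finset.measurable_restrict I) (measurableSet_singleton _),
      Measure.map_apply (Finset.measurable_restrict I) (measurableSet_singleton _)]
    set η : V → Bool := fun v => if h : v ∈ I then x ⟨v, h⟩ else true with hη
    have hpre : (Finset.restrict I : (V → Bool) → (I → Bool)) ⁻¹' {x} = cyl I η := by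
      ext σ
      simp only [Set.mem_preimage, Set.mem_singleton_iff, cyl, Set.mem_ofPred_eq]
      constructor
      · intro h v hv
        rw [hη]
        simp only [hv, dif_pos]
        rw [← h]
        rfl
      · intro h
        funext ⟨v, hv⟩
        have := h v hv
        rw [hη] at this
        simp only [hv, dif_pos] at this
        exact this
    rw [hpre]
    exact hρ I η
  exact (hproj μ inferInstance fun _ _ => rfl).unique
    (hproj ν inferInstance fun I η => (hcyl I η).symm)

theorem isProbabilityMeasure_of_rule {o : V} {β : ℝ} {μ : Measure (V → ℤˣ)}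
    (h : IsFreeIsing T o β μ) : IsProbabilityMeasure μ := by
  have hu : (Set.univ : Set (V → ℤˣ)) = {σ | σ o = 1} ∪ {σ | σ o = -1} := by
    ext σ
    simp only [Set.mem_univ, Set.mem_union, Set.mem_ofPred_eq, true_iff]
    exact Int.units_eq_one_or (σ o)
  have hd : Disjoint {σ : V → ℤˣ | σ o = 1} {σ | σ o = -1} := by
    rw [Set.disjoint_left]
    intro σ h1 h2
    rw [Set.mem_ofPred_eq] at h1 h2
    rw [h1] at h2
    exact absurd h2 (by decide)
  have hm : MeasurableSet {σ : V → ℤˣ | σ o = -1} := by
    have h3 : {σ : V → ℤˣ | σ o = -1} = tob ⁻¹' cyl {o} (tob fun _ => -1) := by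
      rw [← cyl_eq]
      ext σ
      simp
    rw [h3]
    exact measurable_tob (measurableSet_cyl _ _)
  constructor
  rw [hu, measure_union hd hm, h.root, h.root, ENNReal.add_halves]

/-- the step-by-step rule from `o` characterises `freeIsingFrom o₀`, for all vertices `o`, `o₀` -/
theorem isFreeIsing_iff [T.LocallyFinite] (hG : T.IsTree) (o o₀ : V) (β : ℝ)
    (ν : Measure (V → ℤˣ)) : IsFreeIsing T o β ν ↔ ν = freeIsingFrom hG o₀ β := by
  have hI : Vale.Agent.P161.IsFreeIsing T β ((freeIsingFrom hG o₀ β).map tob) := by
    have h1 := map_toB_freeIsingFrom hG o₀ β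
    have h2 : (freeIsingFrom hG o₀ β).map tob = isingOf T o₀ (Real.tanh β) := h1
    rw [h2]
    exact isFreeIsing_isingOf hG o₀
  constructor
  · intro h
    refine map_injective ?_
    have hne : Nonempty V := ⟨o⟩
    have := hI.isProbabilityMeasure
    have := isProbabilityMeasure_of_rule h
    have : IsProbabilityMeasure (ν.map tob) :=
      Measure.isProbabilityMeasure_map measurable_tob.aemeasurable
    refine ext_of_rooted hG o fun D hD hoD η => ?_
    have h3 : tob (ofb η) = η := by
      funext v
      exact toB_ofB (η v)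
    rw [hI.cyl_eq hD, ← h3, ← measure_cyl, cyl_of_rule hG h D.card D rfl hD hoD]
  · rintro rfl
    exact of_isFreeIsing hG o hI

/-- factors of IID with values in `ℤˣ` -/
theorem isFactorOfIID_iff [T.LocallyFinite] {d : ℕ} (hd : 3 ≤ d) (hT : T.IsTree)
    (hreg : T.IsRegularOfDegree d) (o : V) {β : ℝ} (hβ : 0 ≤ β) :
    IsFactorOfIID T (freeIsingFrom hT o β) ↔ Real.tanh β * Real.sqrt ((d : ℝ) - 1) ≤ 1 := by
  have h0 := fiid_iff hT o β
  have hI : Vale.Agent.P161.IsFreeIsing T β (isingOf T o (Real.tanh β)) := isFreeIsing_isingOf hT o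
  refine Iff.trans h0 ?_
  refine ⟨fun hF => ?_, fun h => ?_⟩
  · by_contra hcon
    exact not_isFactorOfIID hT hd hreg (not_le.1 hcon) hI hF
  · rcases h.lt_or_eq with h | h
    · exact isFactorOfIID_of_subcritical hT hd hreg hβ h hI
    · exact Vale.Agent.P161.Crit.isFactorOfIID_critical ⟨hT, hd, hreg, hI, h⟩

/-- the threshold in terms of `β` -/
theorem tanh_le_iff {r : ℝ} (hr : 1 < r) (β : ℝ) :
    Real.tanh β * r ≤ 1 ↔ β ≤ 1 / 2 * Real.log ((r + 1) / (r - 1)) := by
  have hr1 : 0 < r - 1 := by linarith
  have hE : 0 < Real.exp β := Real.exp_pos β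
  have hE2 : Real.exp (2 * β) = Real.exp β * Real.exp β := by
    rw [← Real.exp_add]
    congr 1
    ring
  have h1 : β ≤ 1 / 2 * Real.log ((r + 1) / (r - 1)) ↔ Real.exp (2 * β) ≤ (r + 1) / (r - 1) := by
    rw [← Real.le_log_iff_exp_le (div_pos (by linarith) hr1)]
    constructor <;> intro h <;> linarith
  rw [h1, le_div_iff₀ hr1, hE2, Real.tanh_eq, Real.exp_neg]
  have h2 : (Real.exp β - (Real.exp β)⁻¹) / (Real.exp β + (Real.exp β)⁻¹) * r =
      ((Real.exp β * Real.exp β - 1) * r) / (Real.exp β * Real.exp β + 1) := by
    field_simp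
  rw [h2, div_le_one (by positivity)]
  constructor <;> intro h <;> nlinarith

theorem rpow_eq {x : ℝ} (hx : 0 < x) : x ^ (-(1 / 2) : ℝ) = 1 / Real.sqrt x := by
  rw [Real.rpow_neg hx.le, ← Real.sqrt_eq_rpow, one_div]

end Vale.Agent.P161.D3
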